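import Mathlib

/-!
# P214, target B, block [B3-ABS]: abstract cone splitting lemma

A nonnegative quadratic form `B a = ∫ ‖G y a‖ ^ 2` on an `m`-dimensional space `T`, whose trace is at
least `E₀`, controls the distance to a subspace of dimension `m - 1`.
-/

open MeasureTheory Module
open scoped RealInnerProductSpace

namespace Vale.Agent.P214.BSPL

variable {E F Y : Type*} [NormedAddCommGroup E] [InnerProductSpace ℝ E]
  [NormedAddCommGroup F] [InnerProductSpace ℝ F]

/-- a symmetric nonnegative bilinear form on a finite dimensional space of dimension `m`, with trace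
at least `E₀`, is at least `E₀ / m` in some direction -/
lemma exists_dir [FiniteDimensional ℝ E] (b : E → E → ℝ)
    (hadd : ∀ x x' y, b (x + x') y = b x y + b x' y) (hsmul : ∀ (c : ℝ) x y, b (c • x) y = c * b x y)
    (hsymm : ∀ x y, b x y = b y x) (hpos : ∀ x, 0 ≤ b x x) {ι : Type*} [Fintype ι]
    (e : OrthonormalBasis ι ℝ E) {E₀ : ℝ} (hE : E₀ ≤ ∑ i, b (e i) (e i)) (hne : 0 < finrank ℝ E) :
    ∃ v : E, ‖v‖ = 1 ∧ ∀ a, E₀ * ⟪v, a⟫ ^ 2 ≤ finrank ℝ E * b a a := by
  classical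
  -- the operator of the form
  let M : E →ₗ[ℝ] E :=
    { toFun := fun a => ∑ i, b a (e i) • e i
      map_add' := fun x y => by
        rw [← Finset.sum_add_distrib]
        exact Finset.sum_congr rfl fun i _ => by rw [hadd, add_smul]
      map_smul' := fun c x => by
        rw [RingHom.id_apply, Finset.smul_sum]
        exact Finset.sum_congr rfl fun i _ => by rw [hsmul, smul_smul] }
  have hadd' : ∀ x y y', b x (y + y') = b x y + b x y' := fun x y y' => by
    rw [hsymm, hadd, hsymm y, hsymm y']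
  have hsmul' : ∀ (c : ℝ) x y, b x (c • y) = c * b x y := fun c x y => by
    rw [hsymm, hsmul, hsymm y]
  have hzero' : ∀ x, b x 0 = 0 := fun x => by
    have := hsmul' 0 x 0
    simpa using this
  have hsum : ∀ (s : Finset ι) x (f : ι → E), b x (∑ i ∈ s, f i) = ∑ i ∈ s, b x (f i) := by
    intro s x f
    induction s using Finset.induction_on with
    | empty => simp [hzero']
    | insert i s hi ih => rw [Finset.sum_insert hi, Finset.sum_insert hi, hadd', ih]
  have hM : ∀ a c, ⟪M a, c⟫ = b a c := by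
    intro a c
    have h1 : ⟪M a, c⟫ = ∑ i, b a (e i) * ⟪e i, c⟫ := by
      change ⟪∑ i, b a (e i) • e i, c⟫ = _
      rw [sum_inner]
      exact Finset.sum_congr rfl fun i _ => by rw [real_inner_smul_left]
    have h2 : b a c = ∑ i, b a (e i) * ⟪e i, c⟫ := by
      conv_lhs => rw [← e.sum_repr' c]
      rw [hsum]
      exact Finset.sum_congr rfl fun i _ => by rw [hsmul', mul_comm]
    rw [h1, h2]
  have hMs : M.IsSymmetric := fun a c => by
    rw [hM, hsymm, ← hM, real_inner_comm]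
  set v := hMs.eigenvectorBasis rfl with hv
  set l := hMs.eigenvalues rfl with hl
  have hMv : ∀ i, M (v i) = (l i : ℝ) • v i := fun i => hMs.apply_eigenvectorBasis rfl i
  have hb : ∀ a, b a a = ∑ i, l i * ⟪v i, a⟫ ^ 2 := by
    intro a
    rw [← hM a a]
    have h1 : M a = ∑ i, (⟪v i, a⟫ * l i) • v i := by
      conv_lhs => rw [← v.sum_repr' a]
      rw [map_sum]
      exact Finset.sum_congr rfl fun i _ => by rw [map_smul, hMv, smul_smul]
    rw [h1, sum_inner]
    exact Finset.sum_congr rfl fun i _ => by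
      rw [real_inner_smul_left]
      ring
  have hlpos : ∀ i, 0 ≤ l i := by
    intro i
    have h1 := hpos (v i)
    rw [← hM, hMv, real_inner_smul_left, real_inner_self_eq_norm_sq, v.norm_eq_one] at h1
    linarith
  have htr : ∑ i, b (e i) (e i) = ∑ j, l j := by
    calc ∑ i, b (e i) (e i) = ∑ i, ∑ j, l j * ⟪v j, e i⟫ ^ 2 :=
          Finset.sum_congr rfl fun i _ => hb (e i)
      _ = ∑ j, ∑ i, l j * ⟪v j, e i⟫ ^ 2 := Finset.sum_comm
      _ = ∑ j, l j := by
          refine Finset.sum_congr rfl fun j _ => ?_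
          rw [← Finset.mul_sum]
          have h1 : ∑ i, ⟪v j, e i⟫ ^ 2 = 1 := by
            have h2 := e.sum_sq_norm_inner_left (v j)
            simp only [Real.norm_eq_abs, sq_abs] at h2
            rw [h2, v.norm_eq_one, one_pow]
          rw [h1, mul_one]
  have hex : ∃ j, E₀ ≤ finrank ℝ E * l j := by
    by_contra hcon
    push Not at hcon
    have h1 : ∑ j : Fin (finrank ℝ E), (finrank ℝ E : ℝ) * l j <
        ∑ _j : Fin (finrank ℝ E), E₀ := by
      refine Finset.sum_lt_sum_of_nonempty ?_ fun j _ => hcon j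
      exact ⟨⟨0, hne⟩, Finset.mem_univ _⟩
    rw [← Finset.mul_sum, ← htr, Finset.sum_const, Finset.card_univ, Fintype.card_fin,
      nsmul_eq_mul] at h1
    have h2 : (0:ℝ) < finrank ℝ E := by exact_mod_cast hne
    have h3 := (mul_lt_mul_iff_right₀ h2).1 h1
    linarith
  obtain ⟨j, hj⟩ := hex
  refine ⟨v j, v.norm_eq_one j, fun a => ?_⟩
  rw [hb a]
  have h1 : l j * ⟪v j, a⟫ ^ 2 ≤ ∑ i, l i * ⟪v i, a⟫ ^ 2 :=
    Finset.single_le_sum (f := fun i => l i * ⟪v i, a⟫ ^ 2)
      (fun i _ => mul_nonneg (hlpos i) (sq_nonneg _)) (Finset.mem_univ j)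
  have h2 : 0 ≤ ⟪v j, a⟫ ^ 2 := sq_nonneg _
  calc E₀ * ⟪v j, a⟫ ^ 2 ≤ (finrank ℝ E * l j) * ⟪v j, a⟫ ^ 2 := by gcongr
    _ = finrank ℝ E * (l j * ⟪v j, a⟫ ^ 2) := by ring
    _ ≤ _ := by gcongr

/-- **[B3-ABS]** in a subspace `T` of dimension `m ≥ 1` -/
theorem split_of_trace [FiniteDimensional ℝ E] (T : Submodule ℝ E) (b : E → E → ℝ)
    (hadd : ∀ x x' y, b (x + x') y = b x y + b x' y) (hsmul : ∀ (c : ℝ) x y, b (c • x) y = c * b x y)
    (hsymm : ∀ x y, b x y = b y x) (hpos : ∀ x, 0 ≤ b x x) {ι : Type*} [Fintype ι]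
    (e : OrthonormalBasis ι ℝ T) {E₀ : ℝ} (hE : E₀ ≤ ∑ i, b (e i) (e i)) (hne : 0 < finrank ℝ T) :
    ∃ L : Submodule ℝ E, L ≤ T ∧ finrank ℝ L ≤ finrank ℝ T - 1 ∧
      ∀ a ∈ T, E₀ * ‖a - L.starProjection a‖ ^ 2 ≤ finrank ℝ T * b a a := by
  obtain ⟨v, hv, hva⟩ := exists_dir (E := T) (fun x y => b x y)
    (fun x x' y => by simpa using hadd x x' y) (fun c x y => by simpa using hsmul c x y)
    (fun x y => hsymm x y) (fun x => hpos x) e hE hne
  have hv' : ‖(v : E)‖ = 1 := hv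
  set L : Submodule ℝ E := T ⊓ (ℝ ∙ (v : E))ᗮ with hL
  have key : ∀ a ∈ T, L.starProjection a = a - ⟪(v : E), a⟫ • (v : E) := by
    intro a ha
    refine Submodule.eq_starProjection_of_mem_of_inner_eq_zero ?_ ?_
    · refine ⟨T.sub_mem ha (T.smul_mem _ v.2), Submodule.mem_orthogonal_singleton_iff_inner_right.2 ?_⟩
      rw [inner_sub_right,
        real_inner_smul_right, real_inner_self_eq_norm_sq, hv']
      ring
    · intro w hw
      have h1 : ⟪(v : E), w⟫ = 0 :=
        Submodule.mem_orthogonal_singleton_iff_inner_right.1 hw.2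
      have h2 : a - (a - ⟪(v : E), a⟫ • (v : E)) = ⟪(v : E), a⟫ • (v : E) := by abel
      rw [h2, real_inner_smul_left, h1, mul_zero]
  refine ⟨L, inf_le_left, ?_, fun a ha => ?_⟩
  · have h1 : L < T := by
      refine lt_of_le_of_ne inf_le_left fun h => ?_
      have h2 : (v : E) ∈ L := by rw [h]; exact v.2
      have h3 : ⟪(v : E), (v : E)⟫ = 0 :=
        Submodule.mem_orthogonal_singleton_iff_inner_right.1 h2.2
      rw [real_inner_self_eq_norm_sq, hv'] at h3
      norm_num at h3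
    have h2 := Submodule.finrank_lt_finrank_of_lt h1
    omega
  · rw [key a ha]
    have h2 : a - (a - ⟪(v : E), a⟫ • (v : E)) = ⟪(v : E), a⟫ • (v : E) := by abel
    rw [h2, norm_smul, hv', mul_one, Real.norm_eq_abs, sq_abs]
    exact hva ⟨a, ha⟩

/-- **[B3-ABS]**, integral form: `B a = ∫ ‖G y a‖ ^ 2` -/
theorem split_integral [FiniteDimensional ℝ E] [MeasurableSpace Y] (T : Submodule ℝ E)
    {μ : Measure Y} [IsFiniteMeasure μ] (G : Y → E →L[ℝ] F)
    (hm : ∀ a, AEStronglyMeasurable (fun y => G y a) μ) {K : ℝ} (hK : ∀ᵐ y ∂μ, ‖G y‖ ≤ K)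
    {ι : Type*} [Fintype ι] (e : OrthonormalBasis ι ℝ T) {E₀ : ℝ}
    (hE : E₀ ≤ ∑ i, ∫ y, ‖G y (e i)‖ ^ 2 ∂μ) (hne : 0 < finrank ℝ T) :
    ∃ L : Submodule ℝ E, L ≤ T ∧ finrank ℝ L ≤ finrank ℝ T - 1 ∧
      ∀ a ∈ T, E₀ * ‖a - L.starProjection a‖ ^ 2 ≤ finrank ℝ T * ∫ y, ‖G y a‖ ^ 2 ∂μ := by
  have hint : ∀ a c, Integrable (fun y => ⟪G y a, G y c⟫) μ := by
    intro a c
    refine Integrable.mono' (integrable_const (K * ‖a‖ * (K * ‖c‖))) ((hm a).inner (hm c)) ?_
    filter_upwards [hK] with y hy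
    have h1 : ‖G y a‖ ≤ K * ‖a‖ := (G y).le_of_opNorm_le hy a
    have h2 : ‖G y c‖ ≤ K * ‖c‖ := (G y).le_of_opNorm_le hy c
    calc ‖⟪G y a, G y c⟫‖ ≤ ‖G y a‖ * ‖G y c‖ := norm_inner_le_norm _ _
      _ ≤ K * ‖a‖ * (K * ‖c‖) := by gcongr; exact (norm_nonneg _).trans h1
  have hsq : ∀ a, ∫ y, ‖G y a‖ ^ 2 ∂μ = ∫ y, ⟪G y a, G y a⟫ ∂μ := fun a => by
    congr 1
    ext y
    rw [real_inner_self_eq_norm_sq]
  simp only [hsq] at hE ⊢
  refine split_of_trace T (fun a c => ∫ y, ⟪G y a, G y c⟫ ∂μ) (fun x x' c => ?_) (fun r x c => ?_)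
    (fun x c => ?_) (fun x => ?_) e hE hne
  · rw [← integral_add (hint x c) (hint x' c)]
    congr 1
    ext y
    rw [map_add, inner_add_left]
  · rw [← integral_const_mul]
    congr 1
    ext y
    rw [map_smul, real_inner_smul_left]
  · congr 1
    ext y
    rw [real_inner_comm]
  · refine integral_nonneg fun y => ?_
    rw [real_inner_self_eq_norm_sq]
    positivity

end Vale.Agent.P214.BSPL
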